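import Vale.Agent.Helper29.KTVG.Deg

/-!
# Switch chain on general graphs (problem P335): the column-even case (M3b-ii)

Where `w` and `z` each see both or none of `u`, `v`, the fibre of the pair `{u, v}` is the
fibre of its outer slots, so the pair heat bath equals the outer heat bath.
(Independent second proof of `KTVG.ColEvenStmt`, by helper20.)
-/

namespace KTVG

open Finset Vale.Agent.Helper13.Switch
open Classical

variable {n : ℕ}

/-- the outer label refines the pair label -/
theorem h20_labP_of_labT {u v w z : Fin n} {G G' : SimpleGraph (Fin n)}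
    (h : labT u v w z G' = labT u v w z G) : labP u v G' = labP u v G := by
  unfold labT at h
  rw [slotLab_eq_iff] at h
  rw [labP_eq_iff]
  intro x y hxu hxv hyu hyv
  refine h x y ?_
  simp only [Rbet, Finset.mem_insert, Finset.mem_singleton]
  tauto

/-- a block slot at a column that sees both or none of `u`, `v` is fixed on the pair fibre -/
theorem h20_block_fixed {d : Fin n → ℕ} {G G' : SimpleGraph (Fin n)}
    (hG : G ∈ gOmega n d) (hG' : G' ∈ gOmega n d) {u v c : Fin n} (huv : u ≠ v)
    (hcu : c ≠ u) (hcv : c ≠ v) (hce : G.Adj u c ↔ G.Adj v c)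
    (hlab : labP u v G' = labP u v G) :
    (G'.Adj u c ↔ G.Adj u c) ∧ (G'.Adj v c ↔ G.Adj v c) := by
  have hs := adjN_pair_of_labP hG' hG huv hlab hcu hcv
  have he : adjN G c u = adjN G c v := by
    simp only [adjN, G.adj_comm c u, G.adj_comm c v, hce]
  have l1 := adjN_le_one G' c u
  have l2 := adjN_le_one G' c v
  have l3 := adjN_le_one G c u
  have e1 : adjN G' c u = adjN G c u := by omega
  have e2 : adjN G' c v = adjN G c v := by omega
  constructor
  · have := adj_iff_of_adjN_eq e1
    rw [G'.adj_comm, G.adj_comm]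
    exact this
  · have := adj_iff_of_adjN_eq e2
    rw [G'.adj_comm, G.adj_comm]
    exact this

/-- on a column-even graph, the pair fibre is contained in the outer fibre -/
theorem h20_labT_of_labP {d : Fin n → ℕ} {G G' : SimpleGraph (Fin n)}
    (hG : G ∈ gOmega n d) (hG' : G' ∈ gOmega n d) {u v w z : Fin n} (h4 : D4 u v w z)
    (hce : ColEven u v w z G) (hlab : labP u v G' = labP u v G) :
    labT u v w z G' = labT u v w z G := by
  obtain ⟨huv, huw, huz, hvw, hvz, hwz⟩ := h4
  obtain ⟨hcw, hcz⟩ := hce
  have hw := h20_block_fixed hG hG' huv huw.symm hvw.symm hcw hlab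
  have hz := h20_block_fixed hG hG' huv huz.symm hvz.symm hcz hlab
  have huv' := adj_uv_of_labP hG' hG huv hlab
  have hP := (labP_eq_iff u v G' G).1 hlab
  -- slots with one end in `{u, v}` and the other end `c ∈ {u, v, w, z}`
  have key : ∀ a c : Fin n, (a = u ∨ a = v) → (c = u ∨ c = v ∨ c = w ∨ c = z) →
      (G'.Adj a c ↔ G.Adj a c) := by
    intro a c ha hc
    rcases ha with rfl | rfl
    · rcases hc with rfl | rfl | rfl | rfl
      · simp
      · exact huv'
      · exact hw.1
      · exact hz.1
    · rcases hc with rfl | rfl | rfl | rfl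
      · rw [G'.adj_comm, G.adj_comm]
        exact huv'
      · simp
      · exact hw.2
      · exact hz.2
  unfold labT
  rw [slotLab_eq_iff]
  intro x y hxy
  simp only [Rbet, Finset.mem_insert, Finset.mem_singleton, Finset.mem_sdiff, Finset.mem_univ,
    true_and, not_or, not_and, not_not] at hxy
  by_cases hx : x = u ∨ x = v
  · have hy : y = u ∨ y = v ∨ y = w ∨ y = z := by
      by_contra hcon
      obtain ⟨h1, hr⟩ := not_or.mp hcon
      obtain ⟨h2, hr⟩ := not_or.mp hr
      obtain ⟨h3, h4⟩ := not_or.mp hr
      exact h4 (hxy.1 hx h1 h2 h3)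
    exact key x y hx hy
  · by_cases hy : y = u ∨ y = v
    · have hx' : x = u ∨ x = v ∨ x = w ∨ x = z := by
        by_contra hcon
        obtain ⟨h1, hr⟩ := not_or.mp hcon
        obtain ⟨h2, hr⟩ := not_or.mp hr
        obtain ⟨h3, h4⟩ := not_or.mp hr
        have hh := hxy.2 ⟨h1, h2, h3, h4⟩
        rcases hy with h | h
        · exact hh.1 h
        · exact hh.2 h
      rw [G'.adj_comm, G.adj_comm]
      exact key y x hy hx'
    · obtain ⟨hx1, hx2⟩ := not_or.mp hx
      obtain ⟨hy1, hy2⟩ := not_or.mp hy
      exact hP x y hx1 hx2 hy1 hy2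

/-- **M3b-ii** (`KTVG.ColEvenStmt`): where `w` and `z` each see both or none of `u`, `v`,
the pair heat bath equals the outer one. -/
theorem h20_colEvenStmt (n : ℕ) (d : Fin n → ℕ) : ColEvenStmt n d := by
  intro u v w z h4 f G hG hce
  have hfil : ∀ (i1 : DecidablePred (fun y => labP u v y = labP u v G))
      (i2 : DecidablePred (fun y => labT u v w z y = labT u v w z G)),
      @Finset.filter _ (fun y => labP u v y = labP u v G) i1 (gOmega n d)
      = @Finset.filter _ (fun y => labT u v w z y = labT u v w z G) i2 (gOmega n d) := by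
    intro i1 i2
    ext G'
    simp only [Finset.mem_filter]
    constructor
    · rintro ⟨hG', e⟩
      exact ⟨hG', h20_labT_of_labP hG hG' h4 hce e⟩
    · rintro ⟨hG', e⟩
      exact ⟨hG', h20_labP_of_labT e⟩
  unfold KTV.cexpL
  rw [hfil]

end KTVG
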