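import Mathlib

/-!
Group algebras over a finite free extension embed into matrices over the group algebra of
the base ring.
-/

namespace Vale.Agent.Helper20.P194

open MonoidAlgebra

variable {R F G ι : Type*} [CommRing R] [Ring F] [Algebra R F] [Monoid G]
  [Fintype ι] [DecidableEq ι]

/-- The `(i,j)` entry of the left-multiplication matrix, as an additive map `F →+ R`. -/
noncomputable def entryHom (b : Module.Basis ι R F) (i j : ι) : F →+ R where
  toFun x := Algebra.leftMulMatrix b x i j
  map_zero' := by simp
  map_add' x y := by simp

theorem entryHom_apply (b : Module.Basis ι R F) (i j : ι) (x : F) :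
    entryHom b i j x = Algebra.leftMulMatrix b x i j := rfl

/-- The underlying function of the embedding `F[G] → M_ι(R[G])`. -/
noncomputable def embFun (b : Module.Basis ι R F) (a : MonoidAlgebra F G) :
    Matrix ι ι (MonoidAlgebra R G) :=
  Matrix.of fun i j => MonoidAlgebra.map (entryHom b i j) a

omit [Monoid G] in
theorem embFun_apply (b : Module.Basis ι R F) (a : MonoidAlgebra F G) (i j : ι) :
    embFun b a i j = MonoidAlgebra.map (entryHom b i j) a := rfl

theorem embFun_mul (b : Module.Basis ι R F) (x y : MonoidAlgebra F G) :
    embFun b (x * y) = embFun b x * embFun b y := by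
  ext1 i j
  simp only [embFun_apply, Matrix.mul_apply]
  induction x using MonoidAlgebra.induction_linear with
  | zero => simp
  | add x1 x2 h1 h2 =>
    simp only [add_mul, MonoidAlgebra.map_add, h1, h2, Finset.sum_add_distrib]
  | single g r =>
    induction y using MonoidAlgebra.induction_linear with
    | zero => simp
    | add y1 y2 h1 h2 =>
      simp only [mul_add, MonoidAlgebra.map_add, h1, h2, Finset.sum_add_distrib]
    | single h s =>
      simp only [MonoidAlgebra.single_mul_single, MonoidAlgebra.map_single]
      have hs : ∀ c : ι → R, ∑ l, MonoidAlgebra.single (g * h) (c l) =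
          MonoidAlgebra.single (g * h) (∑ l, c l) := fun c =>
        (map_sum (MonoidAlgebra.singleAddHom (R := R) (g * h)) c Finset.univ).symm
      rw [hs]
      congr 1
      simp only [entryHom_apply, map_mul, Matrix.mul_apply]

/-- The ring embedding `F[G] → M_ι(R[G])` induced by a basis of `F` over `R`. -/
noncomputable def emb (b : Module.Basis ι R F) :
    MonoidAlgebra F G →+* Matrix ι ι (MonoidAlgebra R G) where
  toFun := embFun b
  map_one' := by
    ext1 i j
    simp only [embFun_apply, MonoidAlgebra.one_def, MonoidAlgebra.map_single, entryHom_apply,
      map_one, Matrix.one_apply]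
    split_ifs <;> simp
  map_mul' := embFun_mul b
  map_zero' := by
    ext1 i j
    simp [embFun_apply]
  map_add' x y := by
    ext1 i j
    simp [embFun_apply, MonoidAlgebra.map_add]

theorem emb_injective (b : Module.Basis ι R F) :
    Function.Injective (emb (G := G) b) := by
  intro x y hxy
  apply MonoidAlgebra.coeff_injective
  ext g
  apply Algebra.leftMulMatrix_injective b
  ext i j
  have := congrArg (fun M => (M i j).coeff g) hxy
  simpa [emb, embFun_apply, entryHom_apply] using this

/-- Stable finiteness passes from `R[G]` to `F[G]` when `F` is finite free over `R`. -/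
theorem stablyFinite_of_basis [IsStablyFiniteRing (MonoidAlgebra R G)] (b : Module.Basis ι R F) :
    IsStablyFiniteRing (MonoidAlgebra F G) :=
  IsStablyFiniteRing.of_injective (emb (G := G) b) (emb_injective b)

end Vale.Agent.Helper20.P194
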