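import Mathlib
import Vale.Agent.Helper20.P194Embed

/-!
Stable finiteness of group algebras in characteristic `p`: reduction to finite fields
(specialisation argument) and then to the prime field.
-/

namespace Vale.Agent.Helper20.P194

open MonoidAlgebra

/-- Injectivity of the coefficient-wise map induced by an injective ring homomorphism. -/
theorem mapRingHom_injective {R S G : Type*} [Semiring R] [Semiring S] [Monoid G]
    (f : R →+* S) (hf : Function.Injective f) :
    Function.Injective (MonoidAlgebra.mapRingHom G f) := by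
  intro x y hxy
  apply MonoidAlgebra.coeff_injective
  ext g
  apply hf
  have := congrArg (fun z => z.coeff g) hxy
  simpa using this

/-- Every element whose coefficients lie in a subalgebra `A` comes from `A[G]`. -/
theorem exists_lift {k K G : Type*} [CommSemiring k] [Semiring K] [Algebra k K] [Monoid G]
    (A : Subalgebra k K) (a : MonoidAlgebra K G) (ha : ∀ g, a.coeff g ∈ A) :
    ∃ a' : MonoidAlgebra A G, MonoidAlgebra.mapRingHom G (A.val : A →+* K) a' = a := by
  classical
  refine ⟨∑ g ∈ a.coeff.support, MonoidAlgebra.single g ⟨a.coeff g, ha g⟩, ?_⟩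
  rw [map_sum]
  simp only [MonoidAlgebra.mapRingHom_single]
  conv_rhs => rw [← MonoidAlgebra.sum_coeff_single a]
  rfl

/-- Specialisation: stable finiteness over all finite fields of characteristic `p` implies
stable finiteness over every field of characteristic `p`. -/
theorem stablyFinite_of_finite_fields (G : Type*) [Group G] (p : ℕ) [Fact p.Prime]
    (hfin : ∀ n : ℕ, n ≠ 0 → IsStablyFiniteRing (MonoidAlgebra (GaloisField p n) G))
    (K : Type*) [Field K] [CharP K p] : IsStablyFiniteRing (MonoidAlgebra K G) := by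
  classical
  refine ⟨fun N => ⟨fun {X Y} hXY => ?_⟩⟩
  by_contra hYX
  have hne : Y * X - 1 ≠ 0 := sub_ne_zero.mpr hYX
  obtain ⟨i0, j0, g0, hg0⟩ : ∃ i0 j0 g0, ((Y * X - 1) i0 j0).coeff g0 ≠ 0 := by
    by_contra h
    push Not at h
    apply hne
    ext1 i j
    apply MonoidAlgebra.coeff_injective
    ext g
    simpa using h i j g
  set c : K := ((Y * X - 1) i0 j0).coeff g0 with hc
  let _ : Algebra (ZMod p) K := ZMod.algebra K p
  let S : Finset K :=
    (Finset.univ.biUnion fun i => Finset.univ.biUnion fun j =>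
      (X i j).coeff.support.image (X i j).coeff) ∪
    (Finset.univ.biUnion fun i => Finset.univ.biUnion fun j =>
      (Y i j).coeff.support.image (Y i j).coeff) ∪ {c⁻¹}
  let A : Subalgebra (ZMod p) K := Algebra.adjoin (ZMod p) (S : Set K)
  have hFT : Algebra.FiniteType (ZMod p) A :=
    (Subalgebra.fg_iff_finiteType _).mp (Subalgebra.fg_adjoin_finset S)
  have hX_mem : ∀ i j g, (X i j).coeff g ∈ A := by
    intro i j g
    by_cases h : (X i j).coeff g = 0
    · rw [h]; exact A.zero_mem
    · apply Algebra.subset_adjoin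
      rw [Finset.mem_coe]
      apply Finset.mem_union_left
      apply Finset.mem_union_left
      rw [Finset.mem_biUnion]
      refine ⟨i, Finset.mem_univ _, ?_⟩
      rw [Finset.mem_biUnion]
      exact ⟨j, Finset.mem_univ _, Finset.mem_image.mpr ⟨g, by simpa using h, rfl⟩⟩
  have hY_mem : ∀ i j g, (Y i j).coeff g ∈ A := by
    intro i j g
    by_cases h : (Y i j).coeff g = 0
    · rw [h]; exact A.zero_mem
    · apply Algebra.subset_adjoin
      rw [Finset.mem_coe]
      apply Finset.mem_union_left
      apply Finset.mem_union_right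
      rw [Finset.mem_biUnion]
      refine ⟨i, Finset.mem_univ _, ?_⟩
      rw [Finset.mem_biUnion]
      exact ⟨j, Finset.mem_univ _, Finset.mem_image.mpr ⟨g, by simpa using h, rfl⟩⟩
  have hcinv_mem : c⁻¹ ∈ A := by
    apply Algebra.subset_adjoin
    simp [S]
  choose X0 hX0 using fun i j => exists_lift A (X i j) (hX_mem i j)
  choose Y0 hY0 using fun i j => exists_lift A (Y i j) (hY_mem i j)
  set ι : A →+* K := (A.val : A →+* K) with hι
  have hιinj : Function.Injective ι := Subtype.val_injective
  set ιM : Matrix (Fin N) (Fin N) (MonoidAlgebra A G) →+* Matrix (Fin N) (Fin N) (MonoidAlgebra K G) :=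
    (MonoidAlgebra.mapRingHom G ι).mapMatrix with hιM
  have hιMinj : Function.Injective ιM := by
    intro M1 M2 h
    exact Matrix.map_injective (mapRingHom_injective (G := G) ι hιinj) h
  set X' : Matrix (Fin N) (Fin N) (MonoidAlgebra A G) := Matrix.of X0 with hX'def
  set Y' : Matrix (Fin N) (Fin N) (MonoidAlgebra A G) := Matrix.of Y0 with hY'def
  have hX' : ιM X' = X := by
    ext1 i j
    simp only [hιM, RingHom.mapMatrix_apply, Matrix.map_apply, hX'def, Matrix.of_apply]
    exact hX0 i j
  have hY' : ιM Y' = Y := by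
    ext1 i j
    simp only [hιM, RingHom.mapMatrix_apply, Matrix.map_apply, hY'def, Matrix.of_apply]
    exact hY0 i j
  have hXY' : X' * Y' = 1 := by
    apply hιMinj
    rw [map_mul, hX', hY', hXY, map_one]
  set c' : A := ((Y' * X' - 1) i0 j0).coeff g0 with hc'
  have hcc' : ι c' = c := by
    have : ιM (Y' * X' - 1) = Y * X - 1 := by
      rw [map_sub, map_mul, hX', hY', map_one]
    rw [hc, ← this, hιM, RingHom.mapMatrix_apply, Matrix.map_apply, MonoidAlgebra.coeff_mapRingHom]
  have hunit : c' * ⟨c⁻¹, hcinv_mem⟩ = 1 := by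
    apply hιinj
    rw [map_mul, hcc', map_one]
    exact mul_inv_cancel₀ hg0
  obtain ⟨m, hm⟩ := Ideal.exists_maximal A
  let _ := Ideal.Quotient.field m
  have : Algebra.FiniteType (ZMod p) (A ⧸ m) :=
    Algebra.FiniteType.of_surjective (Ideal.Quotient.mkₐ (ZMod p) m)
      (Ideal.Quotient.mkₐ_surjective (ZMod p) m)
  have : Module.Finite (ZMod p) (A ⧸ m) := finite_of_finite_type_of_isJacobsonRing (ZMod p) (A ⧸ m)
  have : Finite (A ⧸ m) := Module.finite_of_finite (ZMod p)
  have : CharP (A ⧸ m) p := charP_of_injective_algebraMap (algebraMap (ZMod p) (A ⧸ m)).injective p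
  let _ := Fintype.ofFinite (A ⧸ m)
  obtain ⟨n, -, hcard⟩ := FiniteField.card (A ⧸ m) p
  have hcard' : Nat.card (A ⧸ m) = p ^ (n : ℕ) := by
    rw [Nat.card_eq_fintype_card]; exact hcard
  let e := GaloisField.algEquivGaloisField p (n : ℕ) hcard'
  let ρ : A →+* GaloisField p n := (e : (A ⧸ m) →+* GaloisField p n).comp (Ideal.Quotient.mk m)
  set ρM : Matrix (Fin N) (Fin N) (MonoidAlgebra A G) →+*
      Matrix (Fin N) (Fin N) (MonoidAlgebra (GaloisField p n) G) :=
    (MonoidAlgebra.mapRingHom G ρ).mapMatrix with hρM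
  have h1 : ρM X' * ρM Y' = 1 := by
    rw [← map_mul, hXY', map_one]
  have hSF := hfin n n.ne_zero
  have h2 : ρM Y' * ρM X' = 1 := mul_eq_one_symm h1
  have h3 : ρM (Y' * X' - 1) = 0 := by
    rw [map_sub, map_mul, h2, map_one, sub_self]
  have h4 : ρ c' = 0 := by
    have h5 : (ρM (Y' * X' - 1) i0 j0).coeff g0 = ρ c' := by
      rw [hρM, RingHom.mapMatrix_apply, Matrix.map_apply, MonoidAlgebra.coeff_mapRingHom]
    rw [← h5, h3]
    rfl
  have h6 : ρ c' * ρ ⟨c⁻¹, hcinv_mem⟩ = 1 := by
    rw [← map_mul, hunit, map_one]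
  rw [h4, zero_mul] at h6
  exact zero_ne_one h6

/-- Reduction to the prime field: if `𝔽_p[G]` is stably finite then so is `K[G]` for every
field `K` of characteristic `p`. -/
theorem stablyFinite_of_prime_field (G : Type*) [Group G] (p : ℕ) [Fact p.Prime]
    (h : IsStablyFiniteRing (MonoidAlgebra (ZMod p) G))
    (K : Type*) [Field K] [CharP K p] : IsStablyFiniteRing (MonoidAlgebra K G) := by
  apply stablyFinite_of_finite_fields G p _ K
  intro n _
  exact stablyFinite_of_basis (Module.finBasis (ZMod p) (GaloisField p n))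

end Vale.Agent.Helper20.P194
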