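import Mathlib
import Vale.Agent.Helper20.P194Stable

/-!
Stable finiteness of group algebras over arbitrary fields: reduction to the prime fields `𝔽_p`,
by specialisation over `ℤ`.
-/

namespace Vale.Agent.Helper20.P194

open MonoidAlgebra

/-- The ring of integers is a Jacobson ring. -/
theorem int_isJacobsonRing : IsJacobsonRing ℤ := by
  rw [isJacobsonRing_iff_prime_eq]
  intro P hP
  by_cases h0 : P = ⊥
  · subst h0
    apply le_antisymm _ Ideal.le_jacobson
    intro x hx
    rw [Ideal.mem_jacobson_bot] at hx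
    have h1 := hx x
    rw [Int.isUnit_iff] at h1
    have hx0 : x = 0 := by
      rcases h1 with h1 | h1
      · have : x * x = 0 := by linarith
        exact mul_self_eq_zero.mp this
      · nlinarith [mul_self_nonneg x]
    rw [hx0]
    exact Ideal.zero_mem _
  · have : P.IsMaximal := hP.isMaximal h0
    exact Ideal.jacobson_eq_self_of_isMaximal

/-- A field which is finitely generated as a `ℤ`-module is finite, of prime characteristic. -/
theorem finite_field_of_finite_int (F : Type*) [Field F] [Module.Finite ℤ F] :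
    Finite F ∧ ∃ q : ℕ, q.Prime ∧ CharP F q := by
  obtain ⟨q, hq⟩ := CharP.exists F
  have hq0 : q ≠ 0 := by
    rintro rfl
    have : CharZero F := CharP.charP_to_charZero F
    have hle : (⊤ : Submodule ℤ F) ≤ (Ideal.span {(2 : ℤ)}) • (⊤ : Submodule ℤ F) := by
      intro x _
      have hx : x = (2 : ℤ) • (x / 2) := by
        rw [zsmul_eq_mul]
        push_cast
        field_simp
      rw [hx]
      exact Submodule.smul_mem_smul (Ideal.subset_span rfl) trivial
    obtain ⟨r, hr1, hr2⟩ := Submodule.exists_sub_one_mem_and_smul_eq_zero_of_fg_of_le_smul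
      (Ideal.span {(2 : ℤ)}) (⊤ : Submodule ℤ F) Module.Finite.fg_top hle
    have hr0 : (r : F) = 0 := by
      have := hr2 1 trivial
      simpa using this
    have hr : r = 0 := by exact_mod_cast hr0
    subst hr
    rw [Ideal.mem_span_singleton] at hr1
    omega
  have hqp : q.Prime := (CharP.char_is_prime_or_zero F q).resolve_right hq0
  have : Fact q.Prime := ⟨hqp⟩
  let _ : Algebra (ZMod q) F := ZMod.algebra F q
  have : Module.Finite (ZMod q) F := Module.Finite.of_restrictScalars_finite ℤ (ZMod q) F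
  exact ⟨Module.finite_of_finite (ZMod q), q, hqp, hq⟩

/-- Specialisation over `ℤ`: finitely many elements of a field `K` and the inverse of a nonzero
element lie in a subring admitting a ring homomorphism to a finite field. -/
theorem exists_specialization (K : Type*) [Field K] (S : Finset K) (c : K) :
    ∃ A : Subalgebra ℤ K, (∀ s ∈ S, s ∈ A) ∧ c⁻¹ ∈ A ∧
      ∃ (p : ℕ) (_ : Fact p.Prime) (n : ℕ), n ≠ 0 ∧ Nonempty (A →+* GaloisField p n) := by
  classical
  let T : Finset K := S ∪ {c⁻¹}
  let A : Subalgebra ℤ K := Algebra.adjoin ℤ (T : Set K)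
  have hFT : Algebra.FiniteType ℤ A :=
    (Subalgebra.fg_iff_finiteType _).mp (Subalgebra.fg_adjoin_finset T)
  refine ⟨A, fun s hs => Algebra.subset_adjoin (by simp [T, hs]),
    Algebra.subset_adjoin (by simp [T]), ?_⟩
  obtain ⟨m, hm⟩ := Ideal.exists_maximal A
  let _ := Ideal.Quotient.field m
  have : Algebra.FiniteType ℤ (A ⧸ m) :=
    Algebra.FiniteType.of_surjective (Ideal.Quotient.mkₐ ℤ m)
      (Ideal.Quotient.mkₐ_surjective ℤ m)
  have := int_isJacobsonRing
  have : Module.Finite ℤ (A ⧸ m) := finite_of_finite_type_of_isJacobsonRing ℤ (A ⧸ m)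
  obtain ⟨hfinite, p, hp, hchar⟩ := finite_field_of_finite_int (A ⧸ m)
  have : Fact p.Prime := ⟨hp⟩
  let _ : Algebra (ZMod p) (A ⧸ m) := ZMod.algebra (A ⧸ m) p
  let _ := Fintype.ofFinite (A ⧸ m)
  obtain ⟨n, -, hcard⟩ := FiniteField.card (A ⧸ m) p
  have hcard' : Nat.card (A ⧸ m) = p ^ (n : ℕ) := by
    rw [Nat.card_eq_fintype_card]; exact hcard
  let e := GaloisField.algEquivGaloisField p (n : ℕ) hcard'
  exact ⟨p, ⟨hp⟩, n, n.ne_zero,
    ⟨(e : (A ⧸ m) →+* GaloisField p n).comp (Ideal.Quotient.mk m)⟩⟩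

/-- Stable finiteness over all finite fields implies stable finiteness over every field. -/
theorem stablyFinite_of_all_finite_fields (G : Type*) [Group G]
    (hfin : ∀ (p : ℕ) [Fact p.Prime] (n : ℕ), n ≠ 0 →
      IsStablyFiniteRing (MonoidAlgebra (GaloisField p n) G))
    (K : Type*) [Field K] : IsStablyFiniteRing (MonoidAlgebra K G) := by
  classical
  refine ⟨fun N => ⟨fun {X Y} hXY => ?_⟩⟩
  by_contra hYX
  have hne : Y * X - 1 ≠ 0 := sub_ne_zero.mpr hYX
  obtain ⟨i0, j0, g0, hg0⟩ : ∃ i0 j0 g0, ((Y * X - 1) i0 j0).coeff g0 ≠ 0 := by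
    by_contra h
    push Not at h
    apply hne
    ext1 i j
    apply MonoidAlgebra.coeff_injective
    ext g
    simpa using h i j g
  set c : K := ((Y * X - 1) i0 j0).coeff g0 with hc
  let S : Finset K :=
    (Finset.univ.biUnion fun i => Finset.univ.biUnion fun j =>
      (X i j).coeff.support.image (X i j).coeff) ∪
    (Finset.univ.biUnion fun i => Finset.univ.biUnion fun j =>
      (Y i j).coeff.support.image (Y i j).coeff)
  obtain ⟨A, hSA, hcinv_mem, p, hp, n, hn, ⟨ρ⟩⟩ := exists_specialization K S c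
  have hX_mem : ∀ i j g, (X i j).coeff g ∈ A := by
    intro i j g
    by_cases h : (X i j).coeff g = 0
    · rw [h]; exact A.zero_mem
    · apply hSA
      apply Finset.mem_union_left
      rw [Finset.mem_biUnion]
      refine ⟨i, Finset.mem_univ _, ?_⟩
      rw [Finset.mem_biUnion]
      exact ⟨j, Finset.mem_univ _, Finset.mem_image.mpr ⟨g, by simpa using h, rfl⟩⟩
  have hY_mem : ∀ i j g, (Y i j).coeff g ∈ A := by
    intro i j g
    by_cases h : (Y i j).coeff g = 0
    · rw [h]; exact A.zero_mem
    · apply hSA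
      apply Finset.mem_union_right
      rw [Finset.mem_biUnion]
      refine ⟨i, Finset.mem_univ _, ?_⟩
      rw [Finset.mem_biUnion]
      exact ⟨j, Finset.mem_univ _, Finset.mem_image.mpr ⟨g, by simpa using h, rfl⟩⟩
  choose X0 hX0 using fun i j => exists_lift A (X i j) (hX_mem i j)
  choose Y0 hY0 using fun i j => exists_lift A (Y i j) (hY_mem i j)
  set ι : A →+* K := (A.val : A →+* K) with hι
  have hιinj : Function.Injective ι := Subtype.val_injective
  set ιM : Matrix (Fin N) (Fin N) (MonoidAlgebra A G) →+* Matrix (Fin N) (Fin N) (MonoidAlgebra K G) :=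
    (MonoidAlgebra.mapRingHom G ι).mapMatrix with hιM
  have hιMinj : Function.Injective ιM := by
    intro M1 M2 h
    exact Matrix.map_injective (mapRingHom_injective (G := G) ι hιinj) h
  set X' : Matrix (Fin N) (Fin N) (MonoidAlgebra A G) := Matrix.of X0 with hX'def
  set Y' : Matrix (Fin N) (Fin N) (MonoidAlgebra A G) := Matrix.of Y0 with hY'def
  have hX' : ιM X' = X := by
    ext1 i j
    simp only [hιM, RingHom.mapMatrix_apply, Matrix.map_apply, hX'def, Matrix.of_apply]
    exact hX0 i j
  have hY' : ιM Y' = Y := by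
    ext1 i j
    simp only [hιM, RingHom.mapMatrix_apply, Matrix.map_apply, hY'def, Matrix.of_apply]
    exact hY0 i j
  have hXY' : X' * Y' = 1 := by
    apply hιMinj
    rw [map_mul, hX', hY', hXY, map_one]
  set c' : A := ((Y' * X' - 1) i0 j0).coeff g0 with hc'
  have hcc' : ι c' = c := by
    have : ιM (Y' * X' - 1) = Y * X - 1 := by
      rw [map_sub, map_mul, hX', hY', map_one]
    rw [hc, ← this, hιM, RingHom.mapMatrix_apply, Matrix.map_apply, MonoidAlgebra.coeff_mapRingHom]
  have hunit : c' * ⟨c⁻¹, hcinv_mem⟩ = 1 := by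
    apply hιinj
    rw [map_mul, hcc', map_one]
    exact mul_inv_cancel₀ hg0
  set ρM : Matrix (Fin N) (Fin N) (MonoidAlgebra A G) →+*
      Matrix (Fin N) (Fin N) (MonoidAlgebra (GaloisField p n) G) :=
    (MonoidAlgebra.mapRingHom G ρ).mapMatrix with hρM
  have h1 : ρM X' * ρM Y' = 1 := by
    rw [← map_mul, hXY', map_one]
  have hSF := hfin p n hn
  have h2 : ρM Y' * ρM X' = 1 := mul_eq_one_symm h1
  have h3 : ρM (Y' * X' - 1) = 0 := by
    rw [map_sub, map_mul, h2, map_one, sub_self]
  have h4 : ρ c' = 0 := by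
    have h5 : (ρM (Y' * X' - 1) i0 j0).coeff g0 = ρ c' := by
      rw [hρM, RingHom.mapMatrix_apply, Matrix.map_apply, MonoidAlgebra.coeff_mapRingHom]
    rw [← h5, h3]
    rfl
  have h6 : ρ c' * ρ ⟨c⁻¹, hcinv_mem⟩ = 1 := by
    rw [← map_mul, hunit, map_one]
  rw [h4, zero_mul] at h6
  exact zero_ne_one h6

/-- Reduction to the prime fields: if `𝔽_p[G]` is stably finite for every prime `p`, then
`K[G]` is stably finite for every field `K`. -/
theorem stablyFinite_of_all_prime_fields (G : Type*) [Group G]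
    (h : ∀ (p : ℕ) [Fact p.Prime], IsStablyFiniteRing (MonoidAlgebra (ZMod p) G))
    (K : Type*) [Field K] : IsStablyFiniteRing (MonoidAlgebra K G) := by
  apply stablyFinite_of_all_finite_fields G _ K
  intro p _ n _
  have := h p
  exact stablyFinite_of_basis (Module.finBasis (ZMod p) (GaloisField p n))

end Vale.Agent.Helper20.P194
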