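import Mathlib
import Vale.Agent.Helper20.P194AllFields

/-!
Helper file for problem P194 (direct finiteness of group algebras): the reduction of direct
finiteness over an arbitrary field to direct finiteness over the prime fields, with no
matrices.

* `df_of_factor`: if `ev : A → L` is a surjective ring homomorphism from a commutative ring and
  some `e` has `ev e = 1` and `x * e = 0` for all `x` in the kernel (so `L` is a direct factor
  of `A`), then direct finiteness of `A[G]` implies that of `L[G]`.
* `exists_factor_elt`: Maschke's theorem provides such an `e` for every ring homomorphism out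
  of a group algebra `k[C]` of a finite group whose order is nonzero in the field `k`.
* `df_galoisField`: hence `GF(p^n)[G]` is directly finite as soon as `𝔽_p[G × GF(p^n)ˣ]` is.
* `df_of_all_finite_fields`: direct finiteness over all finite fields implies direct
  finiteness over every field (specialisation over `ℤ`).
-/

namespace Vale.Agent.Helper20.P194

open MonoidAlgebra

/-- Surjectivity of the coefficient-wise map induced by a surjective ring homomorphism. -/
theorem mapRingHom_surjective {R S G : Type*} [Semiring R] [Semiring S] [Monoid G]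
    (f : R →+* S) (hf : Function.Surjective f) :
    Function.Surjective (MonoidAlgebra.mapRingHom G f) := by
  classical
  intro a
  refine ⟨∑ g ∈ a.coeff.support, MonoidAlgebra.single g (Function.surjInv hf (a.coeff g)), ?_⟩
  rw [map_sum]
  simp only [MonoidAlgebra.mapRingHom_single, Function.surjInv_eq hf]
  exact MonoidAlgebra.sum_coeff_single a

/-- Direct finiteness passes from `A[G]` to `L[G]` when `L` is a direct factor of the
commutative ring `A`. -/
theorem df_of_factor {A L G : Type*} [CommRing A] [Ring L] [Group G]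
    (ev : A →+* L) (hsurj : Function.Surjective ev) (e : A) (he1 : ev e = 1)
    (hker : ∀ x : A, ev x = 0 → x * e = 0)
    (hdf : ∀ a b : MonoidAlgebra A G, a * b = 1 → b * a = 1) :
    ∀ a b : MonoidAlgebra L G, a * b = 1 → b * a = 1 := by
  intro a b hab
  set π : MonoidAlgebra A G →+* MonoidAlgebra L G := MonoidAlgebra.mapRingHom G ev with hπ
  obtain ⟨a', ha'⟩ := mapRingHom_surjective (G := G) ev hsurj a
  obtain ⟨b', hb'⟩ := mapRingHom_surjective (G := G) ev hsurj b
  set E : MonoidAlgebra A G := MonoidAlgebra.single (1 : G) e with hE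
  have hcomm : ∀ X : MonoidAlgebra A G, E * X = X * E := fun X =>
    MonoidAlgebra.single_one_comm e X
  have hπE : π E = 1 := by
    rw [hπ, hE, MonoidAlgebra.mapRingHom_single, he1]
    rfl
  have hkerE : ∀ X : MonoidAlgebra A G, π X = 0 → X * E = 0 := by
    intro X hX
    apply MonoidAlgebra.coeff_injective
    ext g
    rw [hE, MonoidAlgebra.coeff_mul_single_one]
    have h1 : ev (X.coeff g) = 0 := by
      have := congrArg (fun z => z.coeff g) hX
      simpa [hπ] using this
    simpa using hker _ h1
  have hEE : E * E = E := by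
    have h := hkerE (1 - E) (by rw [map_sub, map_one, hπE, sub_self])
    rw [sub_mul, one_mul] at h
    exact (sub_eq_zero.mp h).symm
  have key : ∀ X Y : MonoidAlgebra A G, π X * π Y = 1 →
      (1 + (X - 1) * E) * (1 + (Y - 1) * E) = 1 := by
    intro X Y hXY
    have h0 : (X * Y - 1) * E = 0 := hkerE _ (by rw [map_sub, map_mul, hXY, map_one, sub_self])
    have h1 : (X - 1) * E * ((Y - 1) * E) = (X - 1) * (Y - 1) * E := by
      rw [mul_assoc (X - 1) E, ← mul_assoc E (Y - 1) E, hcomm (Y - 1), mul_assoc (Y - 1) E E, hEE,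
        ← mul_assoc]
    have h2 : (1 + (X - 1) * E) * (1 + (Y - 1) * E)
        = 1 + ((X - 1) + (Y - 1) + (X - 1) * (Y - 1)) * E := by
      rw [add_mul, add_mul, ← h1]
      noncomm_ring
    rw [h2]
    have h3 : (X - 1) + (Y - 1) + (X - 1) * (Y - 1) = X * Y - 1 := by noncomm_ring
    rw [h3, h0, add_zero]
  have hUV := key a' b' (by rw [ha', hb', hab])
  have hVU := hdf _ _ hUV
  have hfin := congrArg π hVU
  rw [map_mul, map_add, map_add, map_one, map_mul, map_mul, map_sub, map_sub, map_one, hπE,
    ha', hb', mul_one, mul_one] at hfin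
  simpa using hfin

/-- Maschke: for a finite group `C` whose order is nonzero in the field `k`, every ring
homomorphism `ev` out of `k[C]` admits `e` with `ev e = 1` and `x * e = 0` for all `x` in the
kernel of `ev`. -/
theorem exists_factor_elt {k C L : Type*} [Field k] [Group C] [Finite C]
    [NeZero (Nat.card C : k)] [Ring L] (ev : MonoidAlgebra k C →+* L) :
    ∃ e : MonoidAlgebra k C, ev e = 1 ∧ ∀ x : MonoidAlgebra k C, ev x = 0 → x * e = 0 := by
  set W : Submodule (MonoidAlgebra k C) (MonoidAlgebra k C) := RingHom.ker ev with hW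
  obtain ⟨W', hW'⟩ := MonoidAlgebra.Submodule.exists_isCompl W
  have h1 : (1 : MonoidAlgebra k C) ∈ W ⊔ W' := by
    rw [hW'.sup_eq_top]
    exact Submodule.mem_top
  obtain ⟨w, hw, w', hw', hsum⟩ := Submodule.mem_sup.mp h1
  have hw0 : ev w = 0 := hw
  refine ⟨w', ?_, ?_⟩
  · have := congrArg ev hsum
    rw [map_add, hw0, zero_add, map_one] at this
    exact this
  · intro x hx
    have hmem1 : x * w' ∈ W := by
      show ev (x * w') = 0
      rw [map_mul, hx, zero_mul]
    have hmem2 : x * w' ∈ W' := by
      have := W'.smul_mem x hw'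
      simpa using this
    have : x * w' ∈ W ⊓ W' := ⟨hmem1, hmem2⟩
    rw [hW'.inf_eq_bot] at this
    simpa using this


/-- The order `p^n - 1` of the unit group of `GF(p^n)` is not divisible by `p`. -/
theorem not_dvd_card_units (p : ℕ) [Fact p.Prime] (n : ℕ) (hn : n ≠ 0) :
    ¬ p ∣ Nat.card (GaloisField p n)ˣ := by
  have hp : p.Prime := Fact.out
  rw [Nat.card_units, GaloisField.card p n hn]
  intro h
  have h1 : p ∣ p ^ n := dvd_pow_self p hn
  have h2 : 1 ≤ p ^ n := Nat.one_le_pow _ _ hp.pos
  have h3 : p ∣ p ^ n - (p ^ n - 1) := Nat.dvd_sub h1 h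
  have h4 : p ^ n - (p ^ n - 1) = 1 := by omega
  rw [h4] at h3
  exact hp.one_lt.ne' (Nat.dvd_one.mp h3)

/-- `GF(p^n)[G]` is directly finite as soon as `𝔽_p[G × GF(p^n)ˣ]` is. -/
theorem df_galoisField (G : Type*) [Group G] (p : ℕ) [Fact p.Prime] (n : ℕ) (hn : n ≠ 0)
    (hdf : ∀ a b : MonoidAlgebra (ZMod p) (G × (GaloisField p n)ˣ), a * b = 1 → b * a = 1) :
    ∀ a b : MonoidAlgebra (GaloisField p n) G, a * b = 1 → b * a = 1 := by
  have : NeZero (Nat.card (GaloisField p n)ˣ : ZMod p) := ⟨by
    intro h
    rw [ZMod.natCast_eq_zero_iff] at h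
    exact not_dvd_card_units p n hn h⟩
  let ev : MonoidAlgebra (ZMod p) (GaloisField p n)ˣ →ₐ[ZMod p] GaloisField p n :=
    MonoidAlgebra.lift (ZMod p) (GaloisField p n) (GaloisField p n)ˣ
      (Units.coeHom (GaloisField p n))
  have hsurj : Function.Surjective (ev : MonoidAlgebra (ZMod p) (GaloisField p n)ˣ →+*
      GaloisField p n) := by
    intro x
    by_cases hx : x = 0
    · exact ⟨0, by rw [map_zero, hx]⟩
    · refine ⟨MonoidAlgebra.single (Units.mk0 x hx) 1, ?_⟩
      simp [ev]
  obtain ⟨e, he1, hker⟩ := exists_factor_elt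
    (ev : MonoidAlgebra (ZMod p) (GaloisField p n)ˣ →+* GaloisField p n)
  have hdf' : ∀ a b : MonoidAlgebra (MonoidAlgebra (ZMod p) (GaloisField p n)ˣ) G,
      a * b = 1 → b * a = 1 := by
    intro a b hab
    have h1 := hdf ((MonoidAlgebra.curryRingEquiv (R := ZMod p) (M := G)
        (N := (GaloisField p n)ˣ)).symm a)
      ((MonoidAlgebra.curryRingEquiv (R := ZMod p) (M := G) (N := (GaloisField p n)ˣ)).symm b)
      (by rw [← map_mul, hab, map_one])
    have h2 := congrArg (MonoidAlgebra.curryRingEquiv (R := ZMod p) (M := G)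
      (N := (GaloisField p n)ˣ)) h1
    simpa using h2
  exact df_of_factor
    (ev : MonoidAlgebra (ZMod p) (GaloisField p n)ˣ →+* GaloisField p n) hsurj e he1 hker hdf'

/-- Direct finiteness over all finite fields implies direct finiteness over every field. -/
theorem df_of_all_finite_fields (G : Type*) [Group G]
    (hfin : ∀ (p : ℕ) [Fact p.Prime] (n : ℕ), n ≠ 0 →
      ∀ a b : MonoidAlgebra (GaloisField p n) G, a * b = 1 → b * a = 1)
    (K : Type*) [Field K] (a b : MonoidAlgebra K G) (hab : a * b = 1) : b * a = 1 := by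
  classical
  by_contra hba
  have hne : b * a - 1 ≠ 0 := sub_ne_zero.mpr hba
  obtain ⟨g0, hg0⟩ : ∃ g0, (b * a - 1).coeff g0 ≠ 0 := by
    by_contra h
    push Not at h
    apply hne
    apply MonoidAlgebra.coeff_injective
    ext g
    simpa using h g
  set c : K := (b * a - 1).coeff g0 with hc
  let S : Finset K := a.coeff.support.image a.coeff ∪ b.coeff.support.image b.coeff
  obtain ⟨A, hSA, hcinv_mem, p, hp, n, hn, ⟨ρ⟩⟩ := exists_specialization K S c
  have ha_mem : ∀ g, a.coeff g ∈ A := by
    intro g
    by_cases h : a.coeff g = 0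
    · rw [h]; exact A.zero_mem
    · apply hSA
      apply Finset.mem_union_left
      exact Finset.mem_image.mpr ⟨g, by simpa using h, rfl⟩
  have hb_mem : ∀ g, b.coeff g ∈ A := by
    intro g
    by_cases h : b.coeff g = 0
    · rw [h]; exact A.zero_mem
    · apply hSA
      apply Finset.mem_union_right
      exact Finset.mem_image.mpr ⟨g, by simpa using h, rfl⟩
  obtain ⟨a', ha'⟩ := exists_lift A a ha_mem
  obtain ⟨b', hb'⟩ := exists_lift A b hb_mem
  set ι : A →+* K := (A.val : A →+* K) with hι
  have hιinj : Function.Injective ι := Subtype.val_injective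
  have hιinj' := mapRingHom_injective (G := G) ι hιinj
  have hab' : a' * b' = 1 := by
    apply hιinj'
    rw [map_mul, ha', hb', hab, map_one]
  set c' : A := (b' * a' - 1).coeff g0 with hc'
  have hcc' : ι c' = c := by
    have : MonoidAlgebra.mapRingHom G ι (b' * a' - 1) = b * a - 1 := by
      rw [map_sub, map_mul, ha', hb', map_one]
    rw [hc, ← this, MonoidAlgebra.coeff_mapRingHom]
  have hunit : c' * ⟨c⁻¹, hcinv_mem⟩ = 1 := by
    apply hιinj
    rw [map_mul, hcc', map_one]
    exact mul_inv_cancel₀ hg0
  have h1 : MonoidAlgebra.mapRingHom G ρ a' * MonoidAlgebra.mapRingHom G ρ b' = 1 := by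
    rw [← map_mul, hab', map_one]
  have h2 := @hfin p hp n hn _ _ h1
  have h3 : MonoidAlgebra.mapRingHom G ρ (b' * a' - 1) = 0 := by
    rw [map_sub, map_mul, h2, map_one, sub_self]
  have h4 : ρ c' = 0 := by
    rw [hc', ← MonoidAlgebra.coeff_mapRingHom, h3]
    rfl
  have h5 : ρ c' * ρ ⟨c⁻¹, hcinv_mem⟩ = 1 := by
    rw [← map_mul, hunit, map_one]
  rw [h4, zero_mul] at h5
  exact zero_ne_one h5

/-- Reduction to the prime fields with cyclic factors: if `𝔽_p[G × C]` is directly finite for
every prime `p` and every finite cyclic group `C` of order prime to `p`, then `K[G]` is directly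
finite for every field `K`. -/
theorem df_of_prime_fields_cyclic (G : Type*) [Group G]
    (h : ∀ (p : ℕ) [Fact p.Prime] (C : Type) [CommGroup C] [Finite C] [IsCyclic C],
      ¬ p ∣ Nat.card C → ∀ a b : MonoidAlgebra (ZMod p) (G × C), a * b = 1 → b * a = 1)
    (K : Type*) [Field K] (a b : MonoidAlgebra K G) (hab : a * b = 1) : b * a = 1 :=
  df_of_all_finite_fields G
    (fun p _ n hn => df_galoisField G p n hn
      (h p (GaloisField p n)ˣ (not_dvd_card_units p n hn))) K a b hab

end Vale.Agent.Helper20.P194
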